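import Mathlib
import Vale.Agent.P034.Rounding

/-!
P034, Q1: the fractional and integral expectation thresholds differ by at most a universal
constant factor.
-/

open Finset

namespace Vale.Agent.Results.P034.TalagrandConjecture

/-- There is a universal `K` with `q_f(F) ≤ K q(F)` for every nonempty proper increasing family
`F` of subsets of a finite set.  Here `q_f(F)` is the supremum of the `p ∈ [0, 1]` at which `F`
has a fractional cover of cost at most `1/2`, and `q(F)` the same with integral covers. -/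
theorem result :
    ∃ K : ℝ, 0 < K ∧ ∀ (α : Type) [Fintype α] [DecidableEq α] (F : Finset (Finset α)),
      F.Nonempty → ∅ ∉ F → (∀ H ∈ F, ∀ H' : Finset α, H ⊆ H' → H' ∈ F) →
      sSup {p : ℝ | p ∈ Set.Icc (0 : ℝ) 1 ∧ ∃ g : Finset α → ℝ,
          (∀ S, g S ∈ Set.Icc (0 : ℝ) 1) ∧ (∀ H ∈ F, 1 ≤ ∑ S ∈ H.powerset, g S) ∧
            ∑ S : Finset α, g S * p ^ S.card ≤ 1 / 2} ≤
        K * sSup {p : ℝ | p ∈ Set.Icc (0 : ℝ) 1 ∧ ∃ G : Finset (Finset α),
          (∀ H ∈ F, ∃ S ∈ G, S ⊆ H) ∧ ∑ S ∈ G, p ^ S.card ≤ 1 / 2} := by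
  refine ⟨2 ^ 113, by positivity, fun α _ _ F _ hempty _ => ?_⟩
  set Q : Set ℝ := {p : ℝ | p ∈ Set.Icc (0 : ℝ) 1 ∧ ∃ G : Finset (Finset α),
    (∀ H ∈ F, ∃ S ∈ G, S ⊆ H) ∧ ∑ S ∈ G, p ^ S.card ≤ 1 / 2} with hQ
  have hbdd : BddAbove Q := ⟨1, fun p hp => hp.1.2⟩
  refine csSup_le ⟨0, ?_⟩ ?_
  · refine ⟨⟨le_rfl, zero_le_one⟩, fun S => if S ∈ F then 1 else 0, fun S => ?_, fun H hH => ?_, ?_⟩
    · by_cases h : S ∈ F <;> simp [h]
    · refine le_trans (le_of_eq ?_) (single_le_sum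
        (f := fun S => if S ∈ F then (1 : ℝ) else 0) (fun S _ => by split_ifs <;> norm_num)
        (mem_powerset_self H))
      simp [hH]
    · rw [sum_eq_zero]
      · norm_num
      intro S _
      by_cases h : S ∈ F
      · have : S.card ≠ 0 := fun hc => hempty (card_eq_zero.1 hc ▸ h)
        simp [zero_pow this]
      · simp [h]
  rintro p ⟨⟨hp0, hp1⟩, g, hg, hcov, hcost⟩
  obtain ⟨G, hG, hc⟩ :=
    Vale.Agent.P034.rounding F g (fun S => (hg S).1) hcov p hp0 hp1 hcost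
  have hmem : p / 2 ^ 113 ∈ Q :=
    ⟨⟨by positivity, (div_le_self hp0 (one_le_pow₀ (by norm_num))).trans hp1⟩, G, hG, hc⟩
  calc p = 2 ^ 113 * (p / 2 ^ 113) := by field_simp
    _ ≤ _ := mul_le_mul_of_nonneg_left (le_csSup hbdd hmem) (by positivity)

end Vale.Agent.Results.P034.TalagrandConjecture
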